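import Vale.Agent.P154.J.W2

/-! Outer region, job 2. -/

namespace Vale.Agent.P154

open KT

noncomputable def j2o0 : PLift (KT.go (mkCtx w2) utT wtT (l (l (l (l (q (l (l (l (q (l (l (l (q (l
    (l (l (q (l a a) a) a) a) a) a) a) a) a) (l (l a a) a)) a) a) a) (l (l (p a a) a) a)) a) a) a)
    a) 0 8192 0 1048576 0 25165824 = true) := ⟨by decide +kernel⟩
noncomputable def j2o1 : PLift (KT.go (mkCtx w2) utT wtT (l (l (l (p (l a a) (l a a)) a) a) a)
    8192 8192 0 1048576 0 25165824 = true) := ⟨by decide +kernel⟩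
noncomputable def j2o2 : PLift (KT.go (mkCtx w2) utT wtT a 0 16384 0 1048576 25165824 50331648 =
    true) := ⟨by decide +kernel⟩
noncomputable def j2o3 : PLift (KT.go (mkCtx w2) utT wtT a 0 16384 0 1048576 50331648 100663296 =
    true) := ⟨by decide +kernel⟩
noncomputable def j2o4 : PLift (KT.go (mkCtx w2) utT wtT (l (l (p (l (l (l (l (l a a) a) a) a) a)
    (l (l (l (l (l (l a a) a) a) a) a) a)) a) a) 16384 16384 0 1048576 0 100663296 = true) :=
    ⟨by decide +kernel⟩
noncomputable def j2o5 : PLift (KT.go (mkCtx w2) utT wtT (l (p (l (l (l (q (l (l (l a a) a) a) a)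
    a) a) a) (l (l (q (l (l (l (p (l a a) (l a a)) a) a) a) (l a a)) a) a)) a) 32768 32768 0
    1048576 0 100663296 = true) := ⟨by decide +kernel⟩
noncomputable def j2o6 : PLift (KT.go (mkCtx w2) utT wtT (p (q (l (q a a) a) (q a a)) (q (l (p (q
    a a) (q (l a a) a)) a) (q (p a a) (p a a)))) 65536 65536 0 1048576 0 100663296 = true) :=
    ⟨by decide +kernel⟩
noncomputable def j2o7 : PLift (KT.go (mkCtx w2) utT wtT (q a (p (q a a) (q a (p a (q a a))))) 0
    131072 0 1048576 100663296 201326592 = true) := ⟨by decide +kernel⟩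
noncomputable def j2o8 : PLift (KT.go (mkCtx w2) utT wtT (q a (p (q a a) (q a (p a (q a a))))) 0
    131072 0 1048576 201326592 402653184 = true) := ⟨by decide +kernel⟩
noncomputable def j2o9 : PLift (KT.go (mkCtx w2) utT wtT (q a (p (q a a) (q a (p a (q a a))))) 0
    131072 0 1048576 402653184 805306368 = true) := ⟨by decide +kernel⟩
noncomputable def j2o10 : PLift (KT.go (mkCtx w2) utT wtT (q a (p a (q a (l a a)))) 0 131072 0
    1048576 805306368 1610612736 = true) := ⟨by decide +kernel⟩
noncomputable def j2o11 : PLift (KT.go (mkCtx w2) utT wtT (q a (p a (l (q a a) (q a a)))) 0 131072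
    0 1048576 1610612736 3221225472 = true) := ⟨by decide +kernel⟩
noncomputable def j2o12 : PLift (KT.go (mkCtx w2) utT wtT (q a (p (l a a) (l a a))) 0 131072 0
    1048576 3221225472 6442450944 = true) := ⟨by decide +kernel⟩
noncomputable def j2o13 : PLift (KT.go (mkCtx w2) utT wtT (q (l (q (l (p (l (l (q a a) a) a) (l (l
    (q a a) a) a)) (l a a)) (l (p (q a a) (q a a)) (p a a))) (q (l a a) (p a a))) (q (p (l a a) (l
    a a)) (p a a))) 131072 131072 0 524288 0 6442450944 = true) := ⟨by decide +kernel⟩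
noncomputable def j2o14 : PLift (KT.go (mkCtx w2) utT wtT (p (q (l (l (q a a) a) a) (l (q a a) a))
    (q (l (l (q (l (p a a) a) (p a a)) (q a a)) (l (q a a) a)) (q (l (p a (l a a)) a) (l (p a a)
    a)))) 131072 65536 524288 524288 0 3221225472 = true) := ⟨by decide +kernel⟩
noncomputable def j2o15 : PLift (KT.go (mkCtx w2) utT wtT (q (l (p a a) a) (p a (q a a))) 131072
    65536 524288 524288 3221225472 6442450944 = true) := ⟨by decide +kernel⟩
noncomputable def j2o16 : PLift (KT.go (mkCtx w2) utT wtT (q (p (l (q a a) a) (q (l (p a a) a) a))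
    (p a (p a a))) 196608 65536 524288 524288 0 6442450944 = true) := ⟨by decide +kernel⟩
noncomputable def j2o17 : PLift (KT.go (mkCtx w2) utT wtT (q (q a (l (p a a) (p a a))) (q (p (l (p
    a a) a) (q (l a a) (p a a))) (p (q (p a a) (p a a)) (q (p a a) (p a a))))) 0 262144 0 1048576
    6442450944 12884901888 = true) := ⟨by decide +kernel⟩
noncomputable def j2o18 : PLift (KT.go (mkCtx w2) utT wtT (q (q a (p a a)) (q (p (p a a) (l (p a
    a) a)) (p (p a a) (p (q a a) (q a a))))) 0 262144 0 1048576 12884901888 25769803776 = true) :=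
    ⟨by decide +kernel⟩
noncomputable def j2o19 : PLift (KT.go (mkCtx w2) utT wtT (q (q a (p a a)) (p (q a (p a a)) (q a
    (p a (q a a))))) 0 262144 0 1048576 25769803776 51539607552 = true) := ⟨by decide +kernel⟩
noncomputable def j2o20 : PLift (KT.go (mkCtx w2) utT wtT (q (q a a) (p (p a a) (q a (p a a)))) 0
    262144 0 1048576 51539607552 103079215104 = true) := ⟨by decide +kernel⟩
noncomputable def j2o21 : PLift (KT.go (mkCtx w2) utT wtT (q a (p a (q a a))) 0 262144 0 1048576
    103079215104 206158430208 = true) := ⟨by decide +kernel⟩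
noncomputable def j2o22 : PLift (KT.go (mkCtx w2) utT wtT (q a (p a (q a a))) 0 262144 0 1048576
    206158430208 412316860416 = true) := ⟨by decide +kernel⟩
noncomputable def j2o23 : PLift (KT.go (mkCtx w2) utT wtT (q (l (q (l (p (l (l a a) a) (l (q a a)
    a)) a) (p a a)) (p a a)) (p (q (p a a) (p a a)) (q (p a a) (p a a)))) 262144 262144 0 524288 0
    412316860416 = true) := ⟨by decide +kernel⟩
noncomputable def j2o24 : PLift (KT.go (mkCtx w2) utT wtT (l (p (q (l (l (q a a) a) a) (l a a)) (q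
    (l (l (q (l (p a a) a) a) (q a a)) a) (q (l a a) a))) (p (q a a) (q a a))) 262144 131072
    524288 524288 0 412316860416 = true) := ⟨by decide +kernel⟩
noncomputable def j2o25 : PLift (KT.go (mkCtx w2) utT wtT (p (q (l (q a a) a) (p a a)) (q (q (l (p
    a a) a) (p a a)) (p (q a a) (q a a)))) 393216 131072 524288 524288 0 412316860416 = true) :=
    ⟨by decide +kernel⟩
noncomputable def j2o26 : PLift (KT.go (mkCtx w2) utT wtT (q (q a (p a a)) (p (q (p a a) (p (p (q
    a a) a) (q a (p a a)))) (q (p a (q a a)) (p (q a a) (q (p a a) (p a a)))))) 0 524288 0 1048576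
    412316860416 824633720832 = true) := ⟨by decide +kernel⟩
noncomputable def j2o27 : PLift (KT.go (mkCtx w2) utT wtT (q (q a (p a a)) (p (q (p a a) (p (p a
    a) (p a a))) (q (p a a) (p (q a a) (q a (p a a)))))) 0 524288 0 1048576 824633720832
    1649267441664 = true) := ⟨by decide +kernel⟩
noncomputable def j2o28 : PLift (KT.go (mkCtx w2) utT wtT (q (q a a) (p (q a (p (p a a) a)) (q (p
    a a) (p a (q a a))))) 0 524288 0 1048576 1649267441664 3298534883328 = true) :=
    ⟨by decide +kernel⟩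
noncomputable def j2o29 : PLift (KT.go (mkCtx w2) utT wtT (q (q a (p a a)) (p (q a (p a a)) (q (p
    a a) (p a (l a a))))) 0 524288 0 1048576 3298534883328 6597069766656 = true) :=
    ⟨by decide +kernel⟩
noncomputable def j2o30 : PLift (KT.go (mkCtx w2) utT wtT (l (p (p (l (q (p a a) (p a a)) (p a a))
    (l (q (p a a) (p a a)) (q a a))) (p (l (q a a) (q a a)) (l (q a a) (q a a)))) (p (p (p a a) a)
    (p a a))) 524288 131072 0 524288 0 6597069766656 = true) := ⟨by decide +kernel⟩
noncomputable def j2o31 : PLift (KT.go (mkCtx w2) utT wtT (p (p (p (q (p a a) (p (l a a) a)) (q (l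
    a a) (p a a))) (q (p (l a a) (l a a)) (p (l a a) a))) (p (q (l a a) (l a a)) (q (l a a) (l a
    a)))) 655360 131072 0 524288 0 6597069766656 = true) := ⟨by decide +kernel⟩
noncomputable def j2o32 : PLift (KT.go (mkCtx w2) utT wtT (p (p (p (q (p (l (p a a) (p a a)) a) (p
    (p (q a (p a a)) a) a)) (q a a)) (q (p a a) (p a a))) (p (q a a) (q a a))) 786432 131072 0
    262144 0 6597069766656 = true) := ⟨by decide +kernel⟩
noncomputable def j2o33 : PLift (KT.go (mkCtx w2) utT wtT (p (p (q (p (q (p (p a a) a) (p (p a a)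
    a)) (q a a)) (p (p (q (p a a) (p a a)) (q a a)) (q a a))) (q (q a a) (q a a))) (q (q a a) (p
    (q a a) (q a a)))) 917504 131072 0 65536 0 6597069766656 = true) := ⟨by decide +kernel⟩
noncomputable def j2o34 : PLift (KT.go (mkCtx w2) utT wtT (q (p a a) (p (q a a) a)) 917504 131072
    65536 65536 0 6597069766656 = true) := ⟨by decide +kernel⟩
noncomputable def j2o35 : PLift (KT.go (mkCtx w2) utT wtT (p (q a a) (q a a)) 917504 131072 131072
    131072 0 6597069766656 = true) := ⟨by decide +kernel⟩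
noncomputable def j2o36 : PLift (KT.go (mkCtx w2) utT wtT (p (q (p a (l a a)) (p a (q a a))) (q (l
    (p a a) (p a a)) (p (q a a) (q a a)))) 786432 131072 262144 262144 0 6597069766656 = true) :=
    ⟨by decide +kernel⟩
noncomputable def j2o37 : PLift (KT.go (mkCtx w2) utT wtT (p (q (p (q a a) (q a a)) (p (q a a) (q
    a a))) (q (p (q a a) (q a (p a a))) (p (q a (p a a)) (q (p a a) (p a (b 16)))))) 917504 131072
    262144 262144 0 6597069766656 = true) := ⟨by decide +kernel⟩
noncomputable def j2o38 : PLift (KT.go (mkCtx w2) utT wtT (q (l (q (l (p a (l a a)) a) (p a (l a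
    a))) (q a a)) (q (l (p a a) (p a a)) (p (l (p a a) a) (l (q a a) a)))) 524288 262144 524288
    262144 0 6597069766656 = true) := ⟨by decide +kernel⟩
noncomputable def j2o39 : PLift (KT.go (mkCtx w2) utT wtT (p (q (l (p (q a a) (q a a)) (p a (q a
    a))) (p (q a a) (q (l a a) (p a a)))) (q (q (p a a) (p (l a a) a)) (p (q (l a a) (p a a)) (q a
    (p a a))))) 786432 131072 524288 262144 0 6597069766656 = true) := ⟨by decide +kernel⟩
noncomputable def j2o40 : PLift (KT.go (mkCtx w2) utT wtT (q (p (q (p a a) (p a a)) (q (p a a) (p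
    a a))) (p (q (p a a) (p (b 16) (b 16))) (q (p a a) (p (b 16) (b 16))))) 917504 131072 524288
    131072 0 6597069766656 = true) := ⟨by decide +kernel⟩
noncomputable def j2o41 : PLift (KT.go (mkCtx w2) utT wtT (q (p (q (p a a) (p a a)) (q (p a a) (p
    a (b 16)))) (p (q (p (b 16) (b 16)) (p (b 15) (b 15))) (q (p (b 15) (b 15)) (p (b 15) (q (b
    14) (b 14)))))) 917504 131072 655360 131072 0 6597069766656 = true) := ⟨by decide +kernel⟩
noncomputable def j2o42 : PLift (KT.go (mkCtx w2) utT wtT (l (q (l (p (l (q a a) a) (q (l a a) a))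
    (p a a)) (p (l (q a a) a) (q (l a a) (l a a)))) (q (l a a) (p a a))) 524288 131072 786432
    262144 0 6597069766656 = true) := ⟨by decide +kernel⟩
noncomputable def j2o43 : PLift (KT.go (mkCtx w2) utT wtT (q (p (l (q a a) a) (l (q (p a a) (p a
    a)) (q a a))) (p (l (q a (p a a)) (q a a)) (q (l (p a a) (p a a)) (p (l a a) (l a a)))))
    655360 131072 786432 262144 0 6597069766656 = true) := ⟨by decide +kernel⟩
noncomputable def j2o44 : PLift (KT.go (mkCtx w2) utT wtT (q (p (q a a) (q (l a a) (l a a))) (p (q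
    a (p a a)) (q (p a a) (p a (q a (b 16)))))) 786432 131072 786432 131072 0 6597069766656 =
    true) := ⟨by decide +kernel⟩
noncomputable def j2o45 : PLift (KT.go (mkCtx w2) utT wtT (p (q (l a a) (l (p a a) a)) (q (l (p a
    a) a) (p (l a a) (l (q a a) a)))) 786432 65536 917504 131072 0 6597069766656 = true) :=
    ⟨by decide +kernel⟩
noncomputable def j2o46 : PLift (KT.go (mkCtx w2) utT wtT (p (q (p (l a a) (l a a)) (p (b 16) (q
    (b 16) (b 14)))) (q (p (q a (b 16)) (q (b 16) (b 15))) (p (q (b 15) (b 13)) (q (b 13) (p (b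
    12) (b 12)))))) 851968 65536 917504 131072 0 6597069766656 = true) := ⟨by decide +kernel⟩
noncomputable def j2o47 : PLift (KT.go (mkCtx w2) utT wtT (p (q (p a a) (p (b 16) (b 15))) (q (p
    (b 16) (q (b 15) (b 14))) (p (q (b 14) (b 13)) (q (b 13) (b 12))))) 917504 65536 786432 131072
    0 6597069766656 = true) := ⟨by decide +kernel⟩
noncomputable def j2o48 : PLift (KT.go (mkCtx w2) utT wtT (p (q (p (b 14) (q (b 13) (b 13))) (p (q
    (b 13) (b 13)) (q (b 12) (b 12)))) (q (p (q (b 12) (b 12)) (q (p (b 11) (b 11)) (p (b 11) (q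
    (b 10) (b 10))))) (p (q (p (b 11) (b 11)) (p (b 11) (b 10))) (q (p (b 10) (q (b 9) (b 9))) (p
    (q (b 10) (b 9)) (q (p (b 9) (b 8)) (p (b 9) s))))))) 983040 65536 786432 131072 0
    6597069766656 = true) := ⟨by decide +kernel⟩
noncomputable def j2o49 : PLift (KT.go (mkCtx w2) utT wtT (q (p (q (b 14) (b 13)) (q (b 13) (p (b
    12) (b 11)))) (p (q (b 12) (p (b 11) (b 11))) (q (p (b 11) (q (b 10) (b 10))) (p (q (b 10) (b
    9)) (q (b 9) (p (b 9) s)))))) 917504 65536 917504 65536 0 6597069766656 = true) :=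
    ⟨by decide +kernel⟩
noncomputable def j2o50 : PLift (KT.go (mkCtx w2) utT wtT (q (p (q (p (b 12) (b 12)) (p (b 11) (q
    (b 10) (b 10)))) (q (p (b 11) (q (b 10) (b 10))) (p (q (b 10) (p (b 9) (b 9))) (q (p (b 9) (b
    9)) s)))) (p (q (p (q (b 10) (p (b 9) (b 9))) (q (p (b 9) (b 9)) (p (b 9) s))) (p (q (p (b 9)
    s) s) s)) s)) 917504 65536 983040 65536 0 6597069766656 = true) := ⟨by decide +kernel⟩
noncomputable def j2o51 : PLift (KT.go (mkCtx w2) utT wtT (p (q (p (q (p (q (b 10) (b 10)) (q (b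
    10) (b 9))) (p (q (b 9) (p (b 9) (b 9))) (q (p (b 9) s) s))) (q (p (q (p (b 9) (b 9)) s) s)
    s)) (p (q (p (q (p (b 9) s) s) s) s) s)) s) 983040 65536 917504 131072 0 6597069766656 = true)
    := ⟨by decide +kernel⟩

end Vale.Agent.P154
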