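import Vale.Agent.P154.AOf
import Vale.Agent.P154.J.C2
import Vale.Agent.P154.J.O2a

/-! Assembly of job 2. -/

namespace Vale.Agent.P154

theorem j2O : OutGood w2 0 1048576 0 1048576 0 6597069766656 := (OutGood.q (c := 1048576)
    (OutGood.l (OutGood.l (OutGood.l (OutGood.l (OutGood.q (c := 524288) (OutGood.l (OutGood.l
    (OutGood.l (OutGood.l (OutGood.l (OutGood.l (OutGood.q (c := 262144) (OutGood.l (OutGood.l
    (OutGood.l (OutGood.l (OutGood.l (OutGood.l (OutGood.q (c := 131072) (OutGood.q (c := 65536)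
    (OutGood.q (c := 32768) (OutGood.l (OutGood.l (OutGood.q (c := 16384) (kt_of w2_ok j2o0.down
    (by decide +kernel)) (kt_of w2_ok j2o1.down (by decide +kernel)) rfl rfl) (kt_of w2_ok
    j2o2.down (by decide +kernel))) (kt_of w2_ok j2o3.down (by decide +kernel))) (kt_of w2_ok
    j2o4.down (by decide +kernel)) rfl rfl) (kt_of w2_ok j2o5.down (by decide +kernel)) rfl rfl)
    (kt_of w2_ok j2o6.down (by decide +kernel)) rfl rfl) (kt_of w2_ok j2o7.down
    (by decide +kernel))) (kt_of w2_ok j2o8.down (by decide +kernel))) (kt_of w2_ok j2o9.down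
    (by decide +kernel))) (kt_of w2_ok j2o10.down (by decide +kernel))) (kt_of w2_ok j2o11.down
    (by decide +kernel))) (kt_of w2_ok j2o12.down (by decide +kernel))) (OutGood.p (c := 1048576)
    (kt_of w2_ok j2o13.down (by decide +kernel)) (OutGood.q (c := 131072) (OutGood.l (kt_of w2_ok
    j2o14.down (by decide +kernel)) (kt_of w2_ok j2o15.down (by decide +kernel))) (kt_of w2_ok
    j2o16.down (by decide +kernel)) rfl rfl) rfl rfl) rfl rfl) (kt_of w2_ok j2o17.down
    (by decide +kernel))) (kt_of w2_ok j2o18.down (by decide +kernel))) (kt_of w2_ok j2o19.down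
    (by decide +kernel))) (kt_of w2_ok j2o20.down (by decide +kernel))) (kt_of w2_ok j2o21.down
    (by decide +kernel))) (kt_of w2_ok j2o22.down (by decide +kernel))) (OutGood.p (c := 1048576)
    (kt_of w2_ok j2o23.down (by decide +kernel)) (OutGood.q (c := 262144) (kt_of w2_ok j2o24.down
    (by decide +kernel)) (kt_of w2_ok j2o25.down (by decide +kernel)) rfl rfl) rfl rfl) rfl rfl)
    (kt_of w2_ok j2o26.down (by decide +kernel))) (kt_of w2_ok j2o27.down (by decide +kernel)))
    (kt_of w2_ok j2o28.down (by decide +kernel))) (kt_of w2_ok j2o29.down (by decide +kernel)))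
    (OutGood.p (c := 1048576) (OutGood.q (c := 524288) (OutGood.q (c := 262144) (kt_of w2_ok
    j2o30.down (by decide +kernel)) (kt_of w2_ok j2o31.down (by decide +kernel)) rfl rfl)
    (OutGood.p (c := 524288) (OutGood.q (c := 262144) (kt_of w2_ok j2o32.down (by decide +kernel))
    (OutGood.p (c := 262144) (OutGood.p (c := 131072) (kt_of w2_ok j2o33.down (by decide +kernel))
    (kt_of w2_ok j2o34.down (by decide +kernel)) rfl rfl) (kt_of w2_ok j2o35.down
    (by decide +kernel)) rfl rfl) rfl rfl) (OutGood.q (c := 262144) (kt_of w2_ok j2o36.down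
    (by decide +kernel)) (kt_of w2_ok j2o37.down (by decide +kernel)) rfl rfl) rfl rfl) rfl rfl)
    (OutGood.p (c := 524288) (OutGood.q (c := 524288) (kt_of w2_ok j2o38.down (by decide +kernel))
    (OutGood.q (c := 262144) (kt_of w2_ok j2o39.down (by decide +kernel)) (OutGood.p (c := 262144)
    (kt_of w2_ok j2o40.down (by decide +kernel)) (kt_of w2_ok j2o41.down (by decide +kernel)) rfl
    rfl) rfl rfl) rfl rfl) (OutGood.q (c := 524288) (OutGood.q (c := 262144) (kt_of w2_ok
    j2o42.down (by decide +kernel)) (kt_of w2_ok j2o43.down (by decide +kernel)) rfl rfl)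
    (OutGood.q (c := 262144) (OutGood.p (c := 262144) (kt_of w2_ok j2o44.down (by decide +kernel))
    (OutGood.q (c := 131072) (kt_of w2_ok j2o45.down (by decide +kernel)) (kt_of w2_ok j2o46.down
    (by decide +kernel)) rfl rfl) rfl rfl) (OutGood.p (c := 262144) (OutGood.q (c := 131072)
    (kt_of w2_ok j2o47.down (by decide +kernel)) (kt_of w2_ok j2o48.down (by decide +kernel)) rfl
    rfl) (OutGood.q (c := 131072) (OutGood.p (c := 131072) (kt_of w2_ok j2o49.down
    (by decide +kernel)) (kt_of w2_ok j2o50.down (by decide +kernel)) rfl rfl) (kt_of w2_ok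
    j2o51.down (by decide +kernel)) rfl rfl) rfl rfl) rfl rfl) rfl rfl) rfl rfl) rfl rfl) rfl rfl)

theorem j2G : JobG w2 1937596416 0 24 := jobG_of w2_sm j2O (cen1_of j2a0_0.down
    (by decide +kernel)) (cen1_of j2b0_0.down (by decide +kernel)) (cen2_of w2_sm j2c0.down
    (by decide +kernel)) (by decide +kernel)

theorem j2P0 : JobP 0 24 0 0 := jobP_of j2G _ j2t0.down

end Vale.Agent.P154
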