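import Vale.Agent.P154.J.W5

/-! Outer region, job 5. -/

namespace Vale.Agent.P154

open KT

noncomputable def j5o0 : PLift (KT.go (mkCtx w5) utT wtT (q (q a (p a a)) (p (p (q a a) (q a a))
    (q (p a a) (p a a)))) 0 524288 0 1048576 35734127902720 45354854645760 = true) :=
    ⟨by decide +kernel⟩
noncomputable def j5o1 : PLift (KT.go (mkCtx w5) utT wtT (p (p (p (q a a) (q a a)) (q a (p a a)))
    (p (q a (l a a)) (q a (l (q a a) (q a a))))) 524288 262144 0 524288 35734127902720
    45354854645760 = true) := ⟨by decide +kernel⟩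
noncomputable def j5o2 : PLift (KT.go (mkCtx w5) utT wtT (p (q (p a a) (p (b 15) (b 15))) (q (p a
    (q a a)) (p (b 15) (q (b 15) (b 13))))) 786432 262144 0 262144 35734127902720 45354854645760 =
    true) := ⟨by decide +kernel⟩
noncomputable def j5o3 : PLift (KT.go (mkCtx w5) utT wtT (p (q (p a a) (p a (l a (b 16)))) (q (l
    (p a a) (p a a)) (p (l (q a (b 16)) (b 16)) (l (q a (b 16)) (b 16))))) 786432 131072 262144
    262144 35734127902720 45354854645760 = true) := ⟨by decide +kernel⟩
noncomputable def j5o4 : PLift (KT.go (mkCtx w5) utT wtT (p (q (p (b 15) (b 15)) (p (b 13) (q (b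
    13) (b 13)))) (q (p (q (b 15) (b 14)) (q (b 15) (b 14))) (p (q (b 13) (b 13)) (q (b 13) (b
    12))))) 917504 131072 262144 262144 35734127902720 45354854645760 = true) :=
    ⟨by decide +kernel⟩
noncomputable def j5o5 : PLift (KT.go (mkCtx w5) utT wtT (q (l a a) (p (l (q a a) (q a a)) (l (q a
    a) (q a a)))) 524288 262144 524288 262144 35734127902720 45354854645760 = true) :=
    ⟨by decide +kernel⟩
noncomputable def j5o6 : PLift (KT.go (mkCtx w5) utT wtT (l (p a (q a a)) (p a a)) 524288 131072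
    786432 262144 35734127902720 45354854645760 = true) := ⟨by decide +kernel⟩
noncomputable def j5o7 : PLift (KT.go (mkCtx w5) utT wtT (p (l (q a (l a a)) (q a (l a a))) (q (l
    (l a a) a) (l (p (q a a) (q a a)) (p (q a a) (q a a))))) 655360 131072 786432 262144
    35734127902720 45354854645760 = true) := ⟨by decide +kernel⟩
noncomputable def j5o8 : PLift (KT.go (mkCtx w5) utT wtT (p (q (l (p a a) (p a a)) (l (p (q a (b
    16)) (q a (b 16))) (p (b 16) (b 16)))) (q (l (p a a) (p a a)) (p (l (q a (b 15)) (b 16)) (b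
    16)))) 786432 131072 524288 262144 35734127902720 45354854645760 = true) :=
    ⟨by decide +kernel⟩
noncomputable def j5o9 : PLift (KT.go (mkCtx w5) utT wtT (p (q (p (q (b 15) (b 14)) (q (b 14) (b
    13))) (p (q (b 13) (b 12)) (q (b 13) (p (b 12) (b 12))))) (q (p (q (b 14) (b 13)) (q (b 14) (b
    13))) (p (q (b 12) (p (b 12) (b 11))) (q (p (b 12) (b 11)) (p (b 11) (b 11)))))) 917504 131072
    524288 262144 35734127902720 45354854645760 = true) := ⟨by decide +kernel⟩
noncomputable def j5o10 : PLift (KT.go (mkCtx w5) utT wtT (q (l (p a (q a (b 16))) (p a (q a (b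
    16)))) (p (q (b 16) (b 14)) (q (b 15) (b 14)))) 786432 131072 786432 131072 35734127902720
    45354854645760 = true) := ⟨by decide +kernel⟩
noncomputable def j5o11 : PLift (KT.go (mkCtx w5) utT wtT (q (l (p (q a (b 16)) (q (b 16) (b 15)))
    (p (q (b 16) (b 15)) (q (b 15) (b 14)))) (p (q (p (b 14) (b 13)) (p (b 12) (b 12))) (q (p (b
    13) (q (b 12) (b 11))) (p (q (b 11) (b 10)) (q (b 10) (p (b 9) (b 9))))))) 786432 131072
    917504 131072 35734127902720 45354854645760 = true) := ⟨by decide +kernel⟩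
noncomputable def j5o12 : PLift (KT.go (mkCtx w5) utT wtT (p (q (b 13) (p (b 12) (b 11))) (q (p (b
    12) (b 11)) (p (q (b 11) (b 10)) (q (b 10) (b 9))))) 917504 65536 786432 131072 35734127902720
    45354854645760 = true) := ⟨by decide +kernel⟩
noncomputable def j5o13 : PLift (KT.go (mkCtx w5) utT wtT (q (p (b 11) (q (b 10) (b 10))) (p (b
    10) (q (b 9) (b 9)))) 983040 65536 786432 65536 35734127902720 45354854645760 = true) :=
    ⟨by decide +kernel⟩
noncomputable def j5o14 : PLift (KT.go (mkCtx w5) utT wtT (q (p (q (b 9) (b 9)) (q (p (b 9) (b 8))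
    (p (b 8) (b 8)))) (p (q (p (b 9) (b 8)) (p (b 8) (b 8))) (q (p (b 8) (q (b 7) (b 7))) (p (b 7)
    (q (b 7) (b 7)))))) 983040 65536 851968 65536 35734127902720 45354854645760 = true) :=
    ⟨by decide +kernel⟩
noncomputable def j5o15 : PLift (KT.go (mkCtx w5) utT wtT (q (p (q (b 11) (b 10)) (q (b 10) (p (b
    9) (b 9)))) (p (q (b 9) (p (b 8) (b 8))) (q (p (b 8) (b 8)) (p (q (b 8) (b 7)) (q (b 7) (p (b
    7) s)))))) 917504 65536 917504 65536 35734127902720 45354854645760 = true) :=
    ⟨by decide +kernel⟩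
noncomputable def j5o16 : PLift (KT.go (mkCtx w5) utT wtT (q (p (q (p (b 9) (b 9)) (p (b 8) (q (b
    8) (b 7)))) (q (p (b 8) (q (b 8) (b 7))) (p (q (b 7) (b 7)) (q (b 7) s)))) (p (q (p (q (b 7)
    (b 7)) (q (b 7) (p (b 6) s))) (p (q (p (b 7) s) s) s)) s)) 917504 65536 983040 65536
    35734127902720 45354854645760 = true) := ⟨by decide +kernel⟩
noncomputable def j5o17 : PLift (KT.go (mkCtx w5) utT wtT (p (q (p (q (p (b 8) (q (b 7) (b 7))) (p
    (q (b 7) (b 7)) (q (b 7) s))) (q (p (q (b 7) s) s) s)) (p (q (p (q (b 7) s) s) s) s)) s)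
    983040 65536 917504 131072 35734127902720 45354854645760 = true) := ⟨by decide +kernel⟩
noncomputable def j5o18 : PLift (KT.go (mkCtx w5) utT wtT (q (q a (p a a)) (p (p (q a a) (q a a))
    (q a (p a a)))) 0 524288 0 1048576 45354854645760 54975581388800 = true) :=
    ⟨by decide +kernel⟩
noncomputable def j5o19 : PLift (KT.go (mkCtx w5) utT wtT (p (p (p a a) (p a (q a a))) (p (q a (l
    a a)) (q a (l a a)))) 524288 262144 0 524288 45354854645760 54975581388800 = true) :=
    ⟨by decide +kernel⟩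
noncomputable def j5o20 : PLift (KT.go (mkCtx w5) utT wtT (p (p (q a (b 13)) (q a (b 13))) (q (p a
    (q a (b 16))) (p (b 13) (q (b 13) (b 12))))) 786432 262144 0 262144 45354854645760
    54975581388800 = true) := ⟨by decide +kernel⟩
noncomputable def j5o21 : PLift (KT.go (mkCtx w5) utT wtT (q (p (q a (b 16)) (q a (b 16))) (q (p
    (b 13) (b 13)) (p (b 12) (q (b 12) (b 11))))) 786432 262144 262144 131072 45354854645760
    54975581388800 = true) := ⟨by decide +kernel⟩
noncomputable def j5o22 : PLift (KT.go (mkCtx w5) utT wtT (q (l (q (p a a) (p (b 15) (b 15))) (q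
    (p a a) (p (b 15) (b 15)))) (q (p (q (b 13) (b 13)) (q (b 13) (b 13))) (p (q (b 12) (b 11)) (q
    (b 12) (b 11))))) 786432 262144 393216 131072 45354854645760 54975581388800 = true) :=
    ⟨by decide +kernel⟩
noncomputable def j5o23 : PLift (KT.go (mkCtx w5) utT wtT (q (l a a) (p (l (q a a) a) (l (q a a)
    (q a a)))) 524288 262144 524288 262144 45354854645760 54975581388800 = true) :=
    ⟨by decide +kernel⟩
noncomputable def j5o24 : PLift (KT.go (mkCtx w5) utT wtT (q (l (p a a) (p a a)) (l (p (q a a) (q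
    a (p a (q a (b 16))))) (p (q a a) (q a (p a (b 16)))))) 524288 262144 786432 262144
    45354854645760 54975581388800 = true) := ⟨by decide +kernel⟩
noncomputable def j5o25 : PLift (KT.go (mkCtx w5) utT wtT (p (q (l (p a a) a) (p (b 15) (b 15)))
    (q (l a (b 16)) (p (b 15) (b 15)))) 786432 131072 524288 262144 45354854645760 54975581388800
    = true) := ⟨by decide +kernel⟩
noncomputable def j5o26 : PLift (KT.go (mkCtx w5) utT wtT (p (q (p (q (b 13) (b 12)) (q (b 13) (b
    12))) (p (q (b 12) (b 11)) (q (b 12) (b 11)))) (q (p (q (b 13) (b 12)) (q (b 13) (b 11))) (p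
    (q (b 11) (p (b 11) (b 10))) (q (p (b 11) (b 10)) (p (b 10) (b 10)))))) 917504 131072 524288
    262144 45354854645760 54975581388800 = true) := ⟨by decide +kernel⟩
noncomputable def j5o27 : PLift (KT.go (mkCtx w5) utT wtT (q (l (p a (b 16)) (p (b 16) (b 15))) (p
    (q (b 14) (b 13)) (q (b 14) (b 12)))) 786432 131072 786432 131072 45354854645760
    54975581388800 = true) := ⟨by decide +kernel⟩
noncomputable def j5o28 : PLift (KT.go (mkCtx w5) utT wtT (q (p (q (b 16) (b 14)) (q (b 15) (b
    13))) (p (q (b 13) (p (b 11) (b 11))) (q (p (b 12) (b 11)) (p (q (b 10) (b 9)) (q (b 9) (p (b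
    8) (b 8))))))) 786432 131072 917504 131072 45354854645760 54975581388800 = true) :=
    ⟨by decide +kernel⟩
noncomputable def j5o29 : PLift (KT.go (mkCtx w5) utT wtT (p (q (b 12) (p (b 11) (b 10))) (q (p (b
    11) (b 10)) (p (b 10) (q (b 9) (b 8))))) 917504 65536 786432 131072 45354854645760
    54975581388800 = true) := ⟨by decide +kernel⟩
noncomputable def j5o30 : PLift (KT.go (mkCtx w5) utT wtT (q (p (b 10) (q (b 9) (b 9))) (p (b 9)
    (q (b 8) (b 8)))) 983040 65536 786432 65536 45354854645760 54975581388800 = true) :=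
    ⟨by decide +kernel⟩
noncomputable def j5o31 : PLift (KT.go (mkCtx w5) utT wtT (q (p (q (b 9) (b 8)) (q (p (b 8) (b 8))
    (p (b 7) (b 7)))) (p (q (p (b 8) (b 7)) (p (b 7) (b 7))) (q (p (b 7) (q (b 7) (b 6))) (p (b 7)
    (q (b 6) (b 6)))))) 983040 65536 851968 65536 45354854645760 54975581388800 = true) :=
    ⟨by decide +kernel⟩
noncomputable def j5o32 : PLift (KT.go (mkCtx w5) utT wtT (q (p (q (b 10) (b 9)) (q (b 9) (b 8)))
    (p (q (b 8) (p (b 8) (b 7))) (q (p (b 8) (b 7)) (p (b 7) (q (b 6) (b 6)))))) 917504 65536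
    917504 65536 45354854645760 54975581388800 = true) := ⟨by decide +kernel⟩
noncomputable def j5o33 : PLift (KT.go (mkCtx w5) utT wtT (q (p (q (p (b 8) (b 8)) (p (b 8) (b
    7))) (q (p (b 8) (b 7)) (p (q (b 7) (b 6)) (q (b 6) s)))) (p (q (p (q (b 7) (b 6)) (q (b 6) (p
    (b 6) s))) (p (q (p (b 6) s) s) s)) s)) 917504 65536 983040 65536 45354854645760
    54975581388800 = true) := ⟨by decide +kernel⟩
noncomputable def j5o34 : PLift (KT.go (mkCtx w5) utT wtT (p (q (p (q (p (b 7) (q (b 7) (b 6))) (p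
    (q (b 7) (b 6)) (q (b 6) s))) (q (p (q (b 6) s) s) s)) (p (q (p (q (b 6) s) s) s) s)) s)
    983040 65536 917504 131072 45354854645760 54975581388800 = true) := ⟨by decide +kernel⟩

end Vale.Agent.P154
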