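import Vale.Agent.P154.AOf
import Vale.Agent.P154.J.C5
import Vale.Agent.P154.J.O5a

/-! Assembly of job 5. -/

namespace Vale.Agent.P154

theorem j5O : OutGood w5 0 1048576 0 1048576 35734127902720 54975581388800 := (OutGood.l
    (OutGood.q (c := 1048576) (kt_of w5_ok j5o0.down (by decide +kernel)) (OutGood.p
    (c := 1048576) (OutGood.q (c := 524288) (kt_of w5_ok j5o1.down (by decide +kernel)) (OutGood.p
    (c := 524288) (kt_of w5_ok j5o2.down (by decide +kernel)) (OutGood.q (c := 262144) (kt_of
    w5_ok j5o3.down (by decide +kernel)) (kt_of w5_ok j5o4.down (by decide +kernel)) rfl rfl) rfl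
    rfl) rfl rfl) (OutGood.q (c := 524288) (OutGood.p (c := 524288) (kt_of w5_ok j5o5.down
    (by decide +kernel)) (OutGood.q (c := 262144) (kt_of w5_ok j5o6.down (by decide +kernel))
    (kt_of w5_ok j5o7.down (by decide +kernel)) rfl rfl) rfl rfl) (OutGood.p (c := 524288)
    (OutGood.q (c := 262144) (kt_of w5_ok j5o8.down (by decide +kernel)) (kt_of w5_ok j5o9.down
    (by decide +kernel)) rfl rfl) (OutGood.q (c := 262144) (OutGood.p (c := 262144) (kt_of w5_ok
    j5o10.down (by decide +kernel)) (kt_of w5_ok j5o11.down (by decide +kernel)) rfl rfl)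
    (OutGood.p (c := 262144) (OutGood.q (c := 131072) (kt_of w5_ok j5o12.down (by decide +kernel))
    (OutGood.p (c := 131072) (kt_of w5_ok j5o13.down (by decide +kernel)) (kt_of w5_ok j5o14.down
    (by decide +kernel)) rfl rfl) rfl rfl) (OutGood.q (c := 131072) (OutGood.p (c := 131072)
    (kt_of w5_ok j5o15.down (by decide +kernel)) (kt_of w5_ok j5o16.down (by decide +kernel)) rfl
    rfl) (kt_of w5_ok j5o17.down (by decide +kernel)) rfl rfl) rfl rfl) rfl rfl) rfl rfl) rfl rfl)
    rfl rfl) rfl rfl) (OutGood.q (c := 1048576) (kt_of w5_ok j5o18.down (by decide +kernel))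
    (OutGood.p (c := 1048576) (OutGood.q (c := 524288) (kt_of w5_ok j5o19.down
    (by decide +kernel)) (OutGood.p (c := 524288) (kt_of w5_ok j5o20.down (by decide +kernel))
    (OutGood.p (c := 262144) (kt_of w5_ok j5o21.down (by decide +kernel)) (kt_of w5_ok j5o22.down
    (by decide +kernel)) rfl rfl) rfl rfl) rfl rfl) (OutGood.q (c := 524288) (OutGood.p
    (c := 524288) (kt_of w5_ok j5o23.down (by decide +kernel)) (kt_of w5_ok j5o24.down
    (by decide +kernel)) rfl rfl) (OutGood.p (c := 524288) (OutGood.q (c := 262144) (kt_of w5_ok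
    j5o25.down (by decide +kernel)) (kt_of w5_ok j5o26.down (by decide +kernel)) rfl rfl)
    (OutGood.q (c := 262144) (OutGood.p (c := 262144) (kt_of w5_ok j5o27.down (by decide +kernel))
    (kt_of w5_ok j5o28.down (by decide +kernel)) rfl rfl) (OutGood.p (c := 262144) (OutGood.q
    (c := 131072) (kt_of w5_ok j5o29.down (by decide +kernel)) (OutGood.p (c := 131072) (kt_of
    w5_ok j5o30.down (by decide +kernel)) (kt_of w5_ok j5o31.down (by decide +kernel)) rfl rfl)
    rfl rfl) (OutGood.q (c := 131072) (OutGood.p (c := 131072) (kt_of w5_ok j5o32.down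
    (by decide +kernel)) (kt_of w5_ok j5o33.down (by decide +kernel)) rfl rfl) (kt_of w5_ok
    j5o34.down (by decide +kernel)) rfl rfl) rfl rfl) rfl rfl) rfl rfl) rfl rfl) rfl rfl) rfl
    rfl))

theorem j5G : JobG w5 2141429760 130 200 := jobG_of w5_sm j5O (cen1_of j5a0_0.down
    (by decide +kernel)) (cen1_of j5b0_0.down (by decide +kernel)) (cen2_of w5_sm j5c0.down
    (by decide +kernel)) (by decide +kernel)

theorem j5P0 : JobP 130 200 0 0 := jobP_of j5G _ j5t0.down
theorem j5P1 : JobP 130 200 8 8 := jobP_of j5G _ j5t1.down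
theorem j5P2 : JobP 130 200 9 9 := jobP_of j5G _ j5t2.down
theorem j5P3 : JobP 130 200 10 10 := jobP_of j5G _ j5t3.down

end Vale.Agent.P154
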