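import Vale.Agent.P154.J.W1

/-! Outer region, job 1. -/

namespace Vale.Agent.P154

open KT

noncomputable def j1o0 : PLift (KT.go (mkCtx w1) utT wtT (q (q (q (q (q z (p (q z z) (q z z))) (p
    (q z z) (q (q z z) z))) (p (q (q z z) z) (q (q z z) (q z z)))) (p (q (q z z) z) (q (q z z) (q
    z z)))) (p (q (q z z) z) (q (q (p z z) z) (q z z)))) 0 32768 0 1048576 0 0 = true) :=
    ⟨by decide +kernel⟩
noncomputable def j1o1 : PLift (KT.go (mkCtx w1) utT wtT (p (q (q z z) (q z z)) (q (q (p z (q z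
    z)) (p z z)) (q (p z z) z))) 32768 32768 0 1048576 0 0 = true) := ⟨by decide +kernel⟩
noncomputable def j1o2 : PLift (KT.go (mkCtx w1) utT wtT (p (q (q z z) (q (p z z) (p z z))) (q (q
    (p z (q z z)) (p z (q z z))) (q (p z z) (p z z)))) 65536 65536 0 1048576 0 0 = true) :=
    ⟨by decide +kernel⟩
noncomputable def j1o3 : PLift (KT.go (mkCtx w1) utT wtT (q (q (p (q z (p z z)) (q z z)) (p (p (q
    z z) (q z z)) (q z z))) (q (p (p (p z z) z) z) (p (p (p (p z z) z) z) (p z z)))) 131072 131072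
    0 524288 0 0 = true) := ⟨by decide +kernel⟩
noncomputable def j1o4 : PLift (KT.go (mkCtx w1) utT wtT (q (q (p (q z z) (q (p z z) (p (q z z) (q
    z (p z z))))) (p (q z z) (q (p (q z z) (q z z)) (p z z)))) (q (p (q z z) (q (p z z) (p z (q z
    z)))) (p (q z z) (q (p z (p z z)) (p z (p z z)))))) 131072 131072 524288 524288 0 0 = true) :=
    ⟨by decide +kernel⟩
noncomputable def j1o5 : PLift (KT.go (mkCtx w1) utT wtT (q (p (p (q (p (p z z) z) (p (p z z) z))
    (q z z)) (q (p z z) (p z z))) (p (p (p (q (p (p z z) z) (p (p z z) z)) (q z z)) (q z (p z z)))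
    (p (q z z) (q z z)))) 262144 131072 0 524288 0 0 = true) := ⟨by decide +kernel⟩
noncomputable def j1o6 : PLift (KT.go (mkCtx w1) utT wtT (p (q (p (p (p (q (p z z) (p z z)) (q z
    z)) (q z z)) (p (q z z) z)) (p (p (p (p (q (p z z) (p z z)) (q z z)) (q z z)) (p (q z z) z))
    (p z z))) (q (p z z) (p z (q z z)))) 393216 131072 0 524288 0 0 = true) := ⟨by decide +kernel⟩
noncomputable def j1o7 : PLift (KT.go (mkCtx w1) utT wtT (q (p (q z (p z z)) (q (p (q z z) (q z
    z)) (p (q z z) (q z z)))) (p (q (p z z) (p z z)) (q (p (q z z) (q (p z z) (p z z))) (p (q z z)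
    (q (p z z) (p z z)))))) 262144 131072 524288 524288 0 0 = true) := ⟨by decide +kernel⟩
noncomputable def j1o8 : PLift (KT.go (mkCtx w1) utT wtT (q (q (p z z) (p z z)) (p (q z z) (q z
    z))) 393216 131072 524288 262144 0 0 = true) := ⟨by decide +kernel⟩
noncomputable def j1o9 : PLift (KT.go (mkCtx w1) utT wtT (q (q (p (q z z) (q (p z (p z z)) (p z (p
    z z)))) (p (q z z) (p (q z z) (q (p z z) (p z z))))) (p (q (p z z) (p z z)) (q (p (q z z) (q
    (p z (q z (p z (q z z)))) (p z (q (p z (q z z)) (p z z))))) (p z (q (p z (q z z)) z)))))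
    393216 131072 786432 262144 0 0 = true) := ⟨by decide +kernel⟩
noncomputable def j1o10 : PLift (KT.go (mkCtx w1) utT wtT (p (q (p (p (q (p (p z z) z) (p (p z z)
    z)) (q z z)) (p (q z z) z)) (p (p (p (p (p (q z z) (q z z)) (q z z)) (q z z)) (q (p z z) (p z
    z))) (p (q z z) z))) (q (p z z) (p (q z z) z))) 524288 131072 0 262144 0 0 = true) :=
    ⟨by decide +kernel⟩
noncomputable def j1o11 : PLift (KT.go (mkCtx w1) utT wtT (p (q (p z z) (p z z)) (q (q z (p z z))
    (p z (q z z)))) 524288 131072 262144 262144 0 0 = true) := ⟨by decide +kernel⟩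
noncomputable def j1o12 : PLift (KT.go (mkCtx w1) utT wtT (p (p (q (p (p (p (p (q z z) (q z z)) (q
    z z)) (q z z)) (q (p z z) (p z z))) (p (p (p (p (q z z) (q z z)) (q z z)) (q z z)) (q (p z z)
    (p z z)))) (q (p (q z z) z) (p (q z z) z))) (p (q (q z z) (p z z)) (q z z))) 655360 131072 0
    262144 0 0 = true) := ⟨by decide +kernel⟩
noncomputable def j1o13 : PLift (KT.go (mkCtx w1) utT wtT (p (q (p z z) (p z z)) (q (p (q z z) (q
    z z)) (p (q z z) (q z z)))) 655360 131072 262144 262144 0 0 = true) := ⟨by decide +kernel⟩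
noncomputable def j1o14 : PLift (KT.go (mkCtx w1) utT wtT (p (p (q (p (p (p (q z z) (q z z)) (q z
    z)) (q z z)) (p (p (q z (p z z)) (q z z)) (q z z))) (q (q (p z z) (p z z)) (p z z))) (p (q (q
    z z) (p z z)) (q z (q z z)))) 786432 131072 0 131072 0 0 = true) := ⟨by decide +kernel⟩
noncomputable def j1o15 : PLift (KT.go (mkCtx w1) utT wtT (p (p (p (q (p (q z z) (q z z)) (p (q (p
    z z) (p (p z z) z)) (q z z))) (q (q z z) (q z z))) (q (q z (p z z)) (q (p z z) (p z z)))) (q
    (p (q z z) (q z z)) (p (q z z) (q z z)))) 917504 131072 0 65536 0 0 = true) :=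
    ⟨by decide +kernel⟩
noncomputable def j1o16 : PLift (KT.go (mkCtx w1) utT wtT (p (q (q z z) (q (p z z) (p z z))) (q (q
    z z) (q z (p z z)))) 917504 131072 65536 65536 0 0 = true) := ⟨by decide +kernel⟩
noncomputable def j1o17 : PLift (KT.go (mkCtx w1) utT wtT (q (p (q (p z z) (p z z)) (q z z)) (p (q
    (p z z) (p (q z z) z)) (q (q z z) (q (p z z) (p z z))))) 786432 262144 131072 131072 0 0 =
    true) := ⟨by decide +kernel⟩
noncomputable def j1o18 : PLift (KT.go (mkCtx w1) utT wtT (q (q (p z (q z z)) (p z (q z z))) (p (q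
    (q z z) (q (p z z) (p z z))) (q (q (p z z) (p z z)) (p (q z z) (q z z))))) 786432 262144
    262144 131072 0 0 = true) := ⟨by decide +kernel⟩
noncomputable def j1o19 : PLift (KT.go (mkCtx w1) utT wtT (q (q (p (q z z) (q (p z z) (p z z))) (p
    (q z z) (q z z))) (q (p (q (p z z) (p z z)) (q z z)) (p (p (q z (q z z)) (q z (q z z))) (p (q
    z (q z z)) (q z (q z z)))))) 786432 262144 393216 131072 0 0 = true) := ⟨by decide +kernel⟩
noncomputable def j1o20 : PLift (KT.go (mkCtx w1) utT wtT (q (q (p (q (p z z) (p z z)) (q (p z z)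
    (p z z))) (p (q (p z z) (p z z)) (q (p z z) (p z z)))) (p (q (p (q z z) (q z z)) (p (q z z) (q
    z z))) (q (q (p z z) (p z z)) (p (q z z) (q z z))))) 524288 262144 524288 262144 0 0 = true)
    := ⟨by decide +kernel⟩
noncomputable def j1o21 : PLift (KT.go (mkCtx w1) utT wtT (p (q (p (q (p z z) (p z z)) (q z z)) (p
    (q z z) (q z (p z z)))) (q (p (q z z) (q z z)) (p (q z (p z z)) (q z z)))) 786432 131072
    524288 262144 0 0 = true) := ⟨by decide +kernel⟩
noncomputable def j1o22 : PLift (KT.go (mkCtx w1) utT wtT (q (p (q z z) (q (p z z) (p z z))) (p (q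
    (p z z) (p (q z z) (q z z))) (q (p z z) (p (q z z) (q z z))))) 917504 131072 524288 131072 0 0
    = true) := ⟨by decide +kernel⟩
noncomputable def j1o23 : PLift (KT.go (mkCtx w1) utT wtT (q (p (q (p z z) (p z z)) (q (p z z) (p
    z z))) (p (q (p z z) (p (q z z) (q z z))) (q (p (q z z) (q z z)) (p (q z z) (q z z))))) 917504
    131072 655360 131072 0 0 = true) := ⟨by decide +kernel⟩
noncomputable def j1o24 : PLift (KT.go (mkCtx w1) utT wtT (q (q (p (q (p z z) (p z z)) (q (p z z)
    (p z z))) (p (q (p z z) (p z z)) (q (p z (q z z)) (p z (q z z))))) (q (p (q (p z z) (p z z))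
    (q (p z (q z z)) (p z (q z z)))) (p (q (p z z) (p z z)) (q (p z (q z z)) (p z z))))) 524288
    262144 786432 262144 0 0 = true) := ⟨by decide +kernel⟩
noncomputable def j1o25 : PLift (KT.go (mkCtx w1) utT wtT (p (q (p (q z z) (q z z)) (p (q z z) (q
    z (p z z)))) (q (p (q z (p z z)) (q (p z z) (p z z))) (p (q (p z z) (p (q z z) (q z (p z z))))
    (q (p (q z z) (q z (p z z))) (p (q (p z z) (p z z)) (q (p z (q z z)) (p z (q z z))))))))
    786432 131072 786432 262144 0 0 = true) := ⟨by decide +kernel⟩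
noncomputable def j1o26 : PLift (KT.go (mkCtx w1) utT wtT (p (q (p z z) (p z (q z z))) (q (p (q z
    z) (q z z)) (p (q z z) (q (p z z) (p z z))))) 917504 65536 786432 131072 0 0 = true) :=
    ⟨by decide +kernel⟩
noncomputable def j1o27 : PLift (KT.go (mkCtx w1) utT wtT (p (q (p (q z z) (q z (p z z))) (p (q (p
    z z) (p z z)) (q (p z z) (p z z)))) (q (p (q (p z z) (p z z)) (q (p z z) (p z (q z z)))) (p (q
    (p z z) (p z z)) (q (p z (q z z)) (p (q z z) (q z z)))))) 983040 65536 786432 131072 0 0 =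
    true) := ⟨by decide +kernel⟩
noncomputable def j1o28 : PLift (KT.go (mkCtx w1) utT wtT (p (q (p (q z (p z z)) (q (p z z) (p z
    z))) (p (q (p z z) (p z z)) (q (p z (q z z)) (p (q z z) (q z z))))) (q (p (q (p z z) (p (q z
    z) (q z z))) (q (p (q z z) (q z z)) (p (q z z) (q z s)))) (p (q (p (q z z) (q z (p z s))) (p
    (q (p z s) s) s)) s))) 917504 65536 917504 131072 0 0 = true) := ⟨by decide +kernel⟩
noncomputable def j1o29 : PLift (KT.go (mkCtx w1) utT wtT (p (q (p (q (p (q z z) (q z z)) (p (q z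
    z) (q z s))) (q (p (q z s) s) s)) (p (q (p (q z s) s) s) s)) s) 983040 65536 917504 131072 0 0
    = true) := ⟨by decide +kernel⟩

end Vale.Agent.P154
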