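import Vale.Agent.P154.J.W3

/-! Outer region, job 3. -/

namespace Vale.Agent.P154

open KT

noncomputable def j3o0 : PLift (KT.go (mkCtx w3) utT wtT (l (q (q a (p (l a a) (l a a))) (p (q (p
    a a) (p a a)) (q (l (p a a) a) (p a a)))) (q (q a a) (p (q a a) (q a a)))) 0 524288 0 524288
    6597069766656 11544872091648 = true) := ⟨by decide +kernel⟩
noncomputable def j3o1 : PLift (KT.go (mkCtx w3) utT wtT (q (q a a) (p (q a a) (q a a))) 0 524288
    0 524288 11544872091648 16492674416640 = true) := ⟨by decide +kernel⟩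
noncomputable def j3o2 : PLift (KT.go (mkCtx w3) utT wtT (q (l (p a a) (p a a)) (p (l (p a a) (p a
    a)) (l (p a a) (p a a)))) 524288 262144 0 262144 6597069766656 16492674416640 = true) :=
    ⟨by decide +kernel⟩
noncomputable def j3o3 : PLift (KT.go (mkCtx w3) utT wtT (q (l (p (l a a) (l a a)) (p a a)) (p (l
    (q a (p a a)) (q a a)) (l (q (l a a) (p a (l a a))) (q a (p a a))))) 524288 262144 262144
    262144 6597069766656 16492674416640 = true) := ⟨by decide +kernel⟩
noncomputable def j3o4 : PLift (KT.go (mkCtx w3) utT wtT (p (q (p a a) (p (p a a) a)) (q (p a (q a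
    a)) (p a (q a a)))) 786432 262144 0 262144 6597069766656 16492674416640 = true) :=
    ⟨by decide +kernel⟩
noncomputable def j3o5 : PLift (KT.go (mkCtx w3) utT wtT (p (q (p a (l a a)) (p a (l a a))) (q (l
    (p (q a a) (q a a)) (p a a)) (p (l (q a a) a) (l (q a a) a)))) 786432 131072 262144 262144
    6597069766656 16492674416640 = true) := ⟨by decide +kernel⟩
noncomputable def j3o6 : PLift (KT.go (mkCtx w3) utT wtT (p (p (q a a) (q (q a a) (q a (b 16))))
    (q (p (q a a) (q a a)) (p (q a (b 16)) (q (b 16) (p (b 16) (b 16)))))) 917504 131072 262144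
    262144 6597069766656 16492674416640 = true) := ⟨by decide +kernel⟩
noncomputable def j3o7 : PLift (KT.go (mkCtx w3) utT wtT (q (l (l (q a a) a) a) (l (l (q (l (p a
    a) a) (p (l a a) (l a a))) (q a a)) (l a a))) 0 262144 524288 524288 6597069766656
    16492674416640 = true) := ⟨by decide +kernel⟩
noncomputable def j3o8 : PLift (KT.go (mkCtx w3) utT wtT (l (q (l (p (l (q a a) a) (l (q a a) a))
    (p a a)) (p (l (l (p a a) a) a) (l (q a (p a a)) a))) (q (p a a) (p a a))) 262144 262144
    524288 524288 6597069766656 16492674416640 = true) := ⟨by decide +kernel⟩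
noncomputable def j3o9 : PLift (KT.go (mkCtx w3) utT wtT (l (l (q (p a a) (p a a)) (p a (q a a)))
    (p a (l a a))) 524288 131072 524288 262144 6597069766656 16492674416640 = true) :=
    ⟨by decide +kernel⟩
noncomputable def j3o10 : PLift (KT.go (mkCtx w3) utT wtT (l (q (l (p a (l a a)) (p a a)) (p (l (q
    a a) a) (l (q a a) (q a a)))) (q (l a a) (p a (l a a)))) 524288 131072 786432 262144
    6597069766656 16492674416640 = true) := ⟨by decide +kernel⟩
noncomputable def j3o11 : PLift (KT.go (mkCtx w3) utT wtT (l (q (p (l a a) (l a a)) (p (l (p a a)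
    a) (l (q a a) a))) (p (q a a) (q a a))) 655360 131072 524288 262144 6597069766656
    16492674416640 = true) := ⟨by decide +kernel⟩
noncomputable def j3o12 : PLift (KT.go (mkCtx w3) utT wtT (l (p (l (q a a) a) (l (q a (p a a)) (q
    a a))) (p a (l (q a a) a))) 655360 65536 786432 262144 6597069766656 16492674416640 = true) :=
    ⟨by decide +kernel⟩
noncomputable def j3o13 : PLift (KT.go (mkCtx w3) utT wtT (p (l (q (l a a) (p a a)) (q a a)) (l (q
    (p a a) (p a a)) (q a (p a a)))) 720896 65536 786432 262144 6597069766656 16492674416640 =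
    true) := ⟨by decide +kernel⟩
noncomputable def j3o14 : PLift (KT.go (mkCtx w3) utT wtT (q (l (p (q a a) (q a a)) (p a a)) (p (l
    (q a a) a) (l (q a a) (q a a)))) 786432 131072 524288 131072 6597069766656 16492674416640 =
    true) := ⟨by decide +kernel⟩
noncomputable def j3o15 : PLift (KT.go (mkCtx w3) utT wtT (q (l (q (p a a) (p a a)) (p a a)) (l (p
    (q a a) (q a a)) (p (q a a) (q a a)))) 786432 131072 655360 131072 6597069766656
    16492674416640 = true) := ⟨by decide +kernel⟩
noncomputable def j3o16 : PLift (KT.go (mkCtx w3) utT wtT (q (p (q a a) (q (l a a) (l a (b 16))))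
    (p (q (b 16) (p (b 16) (b 15))) (q (b 16) (p (b 15) (b 15))))) 917504 131072 524288 131072
    6597069766656 16492674416640 = true) := ⟨by decide +kernel⟩
noncomputable def j3o17 : PLift (KT.go (mkCtx w3) utT wtT (q (p (q (l a a) (l a (b 16))) (q (l a
    a) (p (b 16) (b 15)))) (p (q (p (b 16) (b 15)) (p (b 15) (b 14))) (q (p (b 15) (b 14)) (p (b
    14) (b 13))))) 917504 131072 655360 131072 6597069766656 16492674416640 = true) :=
    ⟨by decide +kernel⟩
noncomputable def j3o18 : PLift (KT.go (mkCtx w3) utT wtT (q (l (q (p a a) (p a a)) (q a (p a a)))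
    (p (l (q a a) (q a a)) (q (l a a) (l (p a (b 16)) (p a (b 16)))))) 786432 131072 786432 131072
    6597069766656 16492674416640 = true) := ⟨by decide +kernel⟩
noncomputable def j3o19 : PLift (KT.go (mkCtx w3) utT wtT (l (p (q a a) (q (l a a) (p a a))) (p (q
    a a) (q a (p a a)))) 786432 65536 917504 131072 6597069766656 16492674416640 = true) :=
    ⟨by decide +kernel⟩
noncomputable def j3o20 : PLift (KT.go (mkCtx w3) utT wtT (p (q (l (p a a) (p a (b 16))) (p (b 16)
    (q (b 15) (b 14)))) (q (p (b 16) (q (b 15) (b 14))) (p (q (b 14) (b 13)) (q (b 13) (p (b 12)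
    (b 11)))))) 851968 65536 917504 131072 6597069766656 16492674416640 = true) :=
    ⟨by decide +kernel⟩
noncomputable def j3o21 : PLift (KT.go (mkCtx w3) utT wtT (p (q (l (p a (b 16)) (b 16)) (p (b 15)
    (b 14))) (q (p (b 15) (b 14)) (p (q (b 13) (b 13)) (q (b 13) (b 12))))) 917504 65536 786432
    131072 6597069766656 16492674416640 = true) := ⟨by decide +kernel⟩
noncomputable def j3o22 : PLift (KT.go (mkCtx w3) utT wtT (p (q (p (b 14) (q (b 13) (b 12))) (p (b
    13) (q (b 12) (b 11)))) (q (p (q (b 12) (b 11)) (q (p (b 11) (b 10)) (p (b 10) (b 10)))) (p (q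
    (p (b 11) (b 10)) (p (b 10) (b 10))) (q (p (b 10) (q (b 9) (b 9))) (p (b 9) (q (b 8) (b
    8))))))) 983040 65536 786432 131072 6597069766656 16492674416640 = true) :=
    ⟨by decide +kernel⟩
noncomputable def j3o23 : PLift (KT.go (mkCtx w3) utT wtT (q (p (q (b 14) (b 13)) (q (b 13) (b
    12))) (p (q (b 12) (p (b 11) (b 10))) (q (p (b 10) (b 10)) (p (q (b 9) (b 9)) (q (b 9) (p (b
    8) s)))))) 917504 65536 917504 65536 6597069766656 16492674416640 = true) :=
    ⟨by decide +kernel⟩
noncomputable def j3o24 : PLift (KT.go (mkCtx w3) utT wtT (q (p (q (p (b 12) (b 11)) (p (b 10) (q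
    (b 10) (b 9)))) (q (p (b 10) (q (b 10) (b 9))) (p (q (b 9) (b 9)) (q (b 9) s)))) (p (q (p (q
    (b 9) (b 9)) (q (b 9) (p (b 8) s))) (p (q (p (b 8) s) s) s)) s)) 917504 65536 983040 65536
    6597069766656 16492674416640 = true) := ⟨by decide +kernel⟩
noncomputable def j3o25 : PLift (KT.go (mkCtx w3) utT wtT (p (q (p (q (p (b 10) (q (b 9) (b 9)))
    (p (q (b 9) (b 9)) (q (b 8) s))) (q (p (q (b 9) s) s) s)) (p (q (p (q (b 8) s) s) s) s)) s)
    983040 65536 917504 131072 6597069766656 16492674416640 = true) := ⟨by decide +kernel⟩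

end Vale.Agent.P154
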