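import Vale.Agent.P154.J.W4

/-! Outer region, job 4. -/

namespace Vale.Agent.P154

open KT

noncomputable def j4o0 : PLift (KT.go (mkCtx w4) utT wtT (q (q a (p a a)) (p (p (p a (q a a)) (q a
    a)) (q (p a a) (p a a)))) 0 524288 0 1048576 16492674416640 21303037788160 = true) :=
    ⟨by decide +kernel⟩
noncomputable def j4o1 : PLift (KT.go (mkCtx w4) utT wtT (q (q a (p a a)) (p (p (q a a) (q a a))
    (q a (p a a)))) 0 524288 0 1048576 21303037788160 26113401159680 = true) :=
    ⟨by decide +kernel⟩
noncomputable def j4o2 : PLift (KT.go (mkCtx w4) utT wtT (q (q a (p a a)) (p (p (p (q a a) (q a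
    a)) (q a a)) (q (p a a) (p a a)))) 0 524288 0 1048576 26113401159680 35734127902720 = true) :=
    ⟨by decide +kernel⟩
noncomputable def j4o3 : PLift (KT.go (mkCtx w4) utT wtT (l (p (q a (p a a)) (q a (p a a))) (p (q
    a (p a a)) (q a a))) 524288 262144 0 262144 16492674416640 35734127902720 = true) :=
    ⟨by decide +kernel⟩
noncomputable def j4o4 : PLift (KT.go (mkCtx w4) utT wtT (l (q (l (p a a) (p a a)) (p (l (q a a)
    a) (l (q a (p a a)) (q a a)))) (p (q a (l a a)) (q a (l (q a a) (q a a))))) 524288 262144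
    262144 262144 16492674416640 35734127902720 = true) := ⟨by decide +kernel⟩
noncomputable def j4o5 : PLift (KT.go (mkCtx w4) utT wtT (p (p (q (l a a) (p a a)) (q (l a a) a))
    (q (p (l a a) (l (q a a) a)) (p (l a (b 16)) (l (q a (b 15)) (b 16))))) 786432 262144 0 262144
    16492674416640 35734127902720 = true) := ⟨by decide +kernel⟩
noncomputable def j4o6 : PLift (KT.go (mkCtx w4) utT wtT (l (q (p a (l a a)) (p a (l a a))) (q (p
    a a) (p a a))) 786432 131072 262144 131072 16492674416640 35734127902720 = true) :=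
    ⟨by decide +kernel⟩
noncomputable def j4o7 : PLift (KT.go (mkCtx w4) utT wtT (q (l (p a (q a a)) (p a a)) (p (l (q a
    a) (q a a)) (l (q a a) (q a a)))) 786432 131072 393216 131072 16492674416640 26113401159680 =
    true) := ⟨by decide +kernel⟩
noncomputable def j4o8 : PLift (KT.go (mkCtx w4) utT wtT (q (l (p a a) (p a a)) (p (l a a) (l (q a
    a) (q a a)))) 786432 131072 393216 131072 26113401159680 35734127902720 = true) :=
    ⟨by decide +kernel⟩
noncomputable def j4o9 : PLift (KT.go (mkCtx w4) utT wtT (l (q (p a (l a a)) (p (b 15) (q (b 15)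
    (b 15)))) (q (p (b 16) (b 16)) (p (b 14) (q (b 14) (b 14))))) 917504 131072 262144 131072
    16492674416640 35734127902720 = true) := ⟨by decide +kernel⟩
noncomputable def j4o10 : PLift (KT.go (mkCtx w4) utT wtT (l (q (p (l (q a (b 16)) (q a (b 16)))
    (l (q a (b 16)) (q a (b 16)))) (p (q (b 15) (b 15)) (q (b 15) (p (b 15) (b 15))))) (q (p (q (b
    16) (b 15)) (q (b 16) (b 15))) (p (q (b 14) (b 14)) (q (b 14) (b 14))))) 917504 131072 393216
    131072 16492674416640 35734127902720 = true) := ⟨by decide +kernel⟩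
noncomputable def j4o11 : PLift (KT.go (mkCtx w4) utT wtT (q (l (p a (l a a)) (p a a)) (l (p (q a
    (p a a)) (q a (l a a))) (p (q a a) (q a a)))) 524288 262144 524288 262144 16492674416640
    26113401159680 = true) := ⟨by decide +kernel⟩
noncomputable def j4o12 : PLift (KT.go (mkCtx w4) utT wtT (l (q (l a a) (p a (l a a))) (q a (p a
    a))) 524288 131072 786432 262144 16492674416640 26113401159680 = true) := ⟨by decide +kernel⟩
noncomputable def j4o13 : PLift (KT.go (mkCtx w4) utT wtT (l (p (l a a) (l (q a a) (q a a))) (p a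
    (l (q a a) a))) 655360 65536 786432 262144 16492674416640 26113401159680 = true) :=
    ⟨by decide +kernel⟩
noncomputable def j4o14 : PLift (KT.go (mkCtx w4) utT wtT (p (l (q a (p a a)) (q a a)) (l (q (p a
    a) (p a (l a a))) (q (p a a) (p a a)))) 720896 65536 786432 262144 16492674416640
    26113401159680 = true) := ⟨by decide +kernel⟩
noncomputable def j4o15 : PLift (KT.go (mkCtx w4) utT wtT (q (l a a) (p (l (q a a) (q a a)) (l (q
    a a) (q a a)))) 524288 262144 524288 262144 26113401159680 35734127902720 = true) :=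
    ⟨by decide +kernel⟩
noncomputable def j4o16 : PLift (KT.go (mkCtx w4) utT wtT (q (l (q a (p a a)) (q a a)) (q (l (p a
    (l a a)) (p a a)) (p (l (p a a) a) (l (q a (p a a)) (p a (q a a)))))) 524288 262144 786432
    262144 26113401159680 35734127902720 = true) := ⟨by decide +kernel⟩
noncomputable def j4o17 : PLift (KT.go (mkCtx w4) utT wtT (q (l (p (q a a) (q a a)) (p a a)) (p (l
    (q a a) (q a a)) (l (q a a) (q a a)))) 786432 131072 524288 131072 16492674416640
    26113401159680 = true) := ⟨by decide +kernel⟩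
noncomputable def j4o18 : PLift (KT.go (mkCtx w4) utT wtT (q (l (p (q a a) a) (p a a)) (l (p (q a
    a) (q a a)) (p (q a a) (q a a)))) 786432 131072 655360 131072 16492674416640 26113401159680 =
    true) := ⟨by decide +kernel⟩
noncomputable def j4o19 : PLift (KT.go (mkCtx w4) utT wtT (p (q (l (p a a) (p a a)) (l (p (q a a)
    a) (p (q a (b 16)) a))) (q (l (p a a) a) (l (p (q a a) (q a (b 16))) (p a (q a (b 16))))))
    786432 131072 524288 262144 26113401159680 35734127902720 = true) := ⟨by decide +kernel⟩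
noncomputable def j4o20 : PLift (KT.go (mkCtx w4) utT wtT (l (q (p (q (l a a) (b 16)) (q (l a (b
    16)) (b 16))) (p (q (b 15) (b 15)) (q (b 15) (p (b 14) (b 14))))) (q (p (q (b 16) (b 15)) (q
    (b 16) (b 15))) (p (q (b 14) (b 13)) (q (b 14) (p (b 13) (b 13)))))) 917504 131072 524288
    131072 16492674416640 35734127902720 = true) := ⟨by decide +kernel⟩
noncomputable def j4o21 : PLift (KT.go (mkCtx w4) utT wtT (q (p (q (l a (b 16)) (b 15)) (q (b 16)
    (b 15))) (p (q (p (b 14) (b 14)) (p (b 14) (b 13))) (q (p (b 14) (b 13)) (p (b 13) (b 12)))))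
    917504 131072 655360 131072 16492674416640 26113401159680 = true) := ⟨by decide +kernel⟩
noncomputable def j4o22 : PLift (KT.go (mkCtx w4) utT wtT (q (p (q (b 15) (b 14)) (q (b 15) (b
    14))) (p (q (p (b 13) (b 13)) (p (b 13) (b 12))) (q (p (b 13) (b 12)) (p (b 12) (b 11)))))
    917504 131072 655360 131072 26113401159680 35734127902720 = true) := ⟨by decide +kernel⟩
noncomputable def j4o23 : PLift (KT.go (mkCtx w4) utT wtT (q (l (p (q a a) (q a a)) (p a (q a a)))
    (p (l (q a a) (q a (b 16))) (l (q a (b 16)) (q a (b 15))))) 786432 131072 786432 131072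
    16492674416640 26113401159680 = true) := ⟨by decide +kernel⟩
noncomputable def j4o24 : PLift (KT.go (mkCtx w4) utT wtT (l (p (q a a) (q (l a a) (p a (b 16))))
    (p (q a a) (q a (b 16)))) 786432 65536 917504 131072 16492674416640 26113401159680 = true) :=
    ⟨by decide +kernel⟩
noncomputable def j4o25 : PLift (KT.go (mkCtx w4) utT wtT (p (q (l (p a (b 16)) (b 16)) (p (b 15)
    (q (b 14) (b 13)))) (q (p (b 15) (q (b 14) (b 13))) (p (q (b 13) (b 12)) (q (b 12) (p (b 11)
    (b 10)))))) 851968 65536 917504 131072 16492674416640 26113401159680 = true) :=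
    ⟨by decide +kernel⟩
noncomputable def j4o26 : PLift (KT.go (mkCtx w4) utT wtT (q (l (p a (q a a)) (p a a)) (l (p (q a
    (b 16)) (q (b 16) (b 15))) (p (q (b 16) (b 15)) (q (b 16) (b 14))))) 786432 131072 786432
    131072 26113401159680 35734127902720 = true) := ⟨by decide +kernel⟩
noncomputable def j4o27 : PLift (KT.go (mkCtx w4) utT wtT (q (l (p (q a a) (q a (b 16))) (p (q a
    (b 16)) (q a (b 15)))) (p (q (b 15) (p (b 13) (b 13))) (q (p (b 14) (q (b 13) (b 12))) (p (q
    (b 12) (b 11)) (q (b 11) (b 10)))))) 786432 131072 917504 131072 26113401159680 35734127902720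
    = true) := ⟨by decide +kernel⟩
noncomputable def j4o28 : PLift (KT.go (mkCtx w4) utT wtT (p (q (p (b 15) (b 15)) (p (b 14) (b
    13))) (q (p (b 14) (b 13)) (p (q (b 13) (b 12)) (q (b 12) (b 11))))) 917504 65536 786432
    131072 16492674416640 35734127902720 = true) := ⟨by decide +kernel⟩
noncomputable def j4o29 : PLift (KT.go (mkCtx w4) utT wtT (q (p (b 13) (q (b 12) (b 11))) (p (q (b
    12) (b 11)) (q (b 11) (b 11)))) 983040 65536 786432 65536 16492674416640 35734127902720 =
    true) := ⟨by decide +kernel⟩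
noncomputable def j4o30 : PLift (KT.go (mkCtx w4) utT wtT (q (p (q (b 11) (p (b 10) (b 10))) (q (p
    (b 10) (b 10)) (p (b 9) (b 9)))) (p (q (p (b 10) (b 9)) (p (b 10) (b 9))) (q (p (b 9) (q (b 8)
    (b 8))) (p (q (b 8) (b 8)) (q (b 8) (p (b 8) s)))))) 983040 65536 851968 65536 16492674416640
    35734127902720 = true) := ⟨by decide +kernel⟩
noncomputable def j4o31 : PLift (KT.go (mkCtx w4) utT wtT (q (p (q (b 13) (b 12)) (q (b 12) (p (b
    11) (b 10)))) (p (q (p (b 11) (b 10)) (p (b 10) (b 9))) (q (p (b 10) (q (b 9) (b 9))) (p (q (b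
    9) (b 8)) (q (b 8) (p (b 8) s)))))) 917504 65536 917504 65536 16492674416640 35734127902720 =
    true) := ⟨by decide +kernel⟩
noncomputable def j4o32 : PLift (KT.go (mkCtx w4) utT wtT (q (p (q (p (b 11) (b 10)) (p (b 10) (q
    (b 9) (b 9)))) (q (p (b 10) (q (b 9) (b 9))) (p (q (b 9) (p (b 8) (b 8))) (q (p (b 8) (b 8))
    s)))) (p (q (p (q (b 9) (b 8)) (q (p (b 8) (b 8)) (p (b 8) s))) (p (q (p (b 8) s) s) s)) s))
    917504 65536 983040 65536 16492674416640 35734127902720 = true) := ⟨by decide +kernel⟩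
noncomputable def j4o33 : PLift (KT.go (mkCtx w4) utT wtT (p (q (p (q (p (b 9) (q (b 9) (b 8))) (p
    (q (b 8) (b 8)) (q (p (b 8) s) s))) (q (p (q (p (b 8) (b 8)) s) s) s)) (p (q (p (q (p (b 8) s)
    s) s) s) s)) s) 983040 65536 917504 131072 16492674416640 35734127902720 = true) :=
    ⟨by decide +kernel⟩

end Vale.Agent.P154
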