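import Vale.Agent.P154.J.W6

/-! Outer region, job 6. -/

namespace Vale.Agent.P154

open KT

noncomputable def j6o0 : PLift (KT.go (mkCtx w6) utT wtT (l (q (q a (p a a)) (p (p (q a a) (q a
    a)) (q (p a a) (p a a)))) (q (q a a) (p (p (q a a) (q a a)) (q a (p a a))))) 0 524288 0
    1048576 54975581388800 68719476736000 = true) := ⟨by decide +kernel⟩
noncomputable def j6o1 : PLift (KT.go (mkCtx w6) utT wtT (p (p (l (p (q a a) (q a a)) (q a (p a
    a))) (l (q a (p a a)) (q a a))) (p (q (l a a) (l a a)) (q (l a a) (l (l a a) (l a (b 16))))))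
    524288 262144 0 524288 54975581388800 68719476736000 = true) := ⟨by decide +kernel⟩
noncomputable def j6o2 : PLift (KT.go (mkCtx w6) utT wtT (p (q (p (b 16) (b 16)) (p (b 12) (b
    12))) (q (p (b 16) (b 16)) (p (b 12) (q (b 12) (b 11))))) 786432 262144 0 262144
    54975581388800 68719476736000 = true) := ⟨by decide +kernel⟩
noncomputable def j6o3 : PLift (KT.go (mkCtx w6) utT wtT (p (q (p (q (b 16) (b 14)) (q (b 16) (b
    14))) (p (q (b 12) (b 11)) (q (b 12) (q (b 11) (b 10))))) (q (q (p (b 16) (b 16)) (p (b 14) (b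
    14))) (q (p (q (b 12) (b 11)) (q (b 12) (b 11))) (p (q (b 11) (b 10)) (q (b 11) (p (b 10) (b
    10))))))) 786432 262144 262144 262144 54975581388800 68719476736000 = true) :=
    ⟨by decide +kernel⟩
noncomputable def j6o4 : PLift (KT.go (mkCtx w6) utT wtT (l (q (l a a) (p (l a a) (l (q a a) a)))
    (q a (p (l a (b 16)) (l a (b 16))))) 524288 262144 524288 262144 54975581388800 68719476736000
    = true) := ⟨by decide +kernel⟩
noncomputable def j6o5 : PLift (KT.go (mkCtx w6) utT wtT (q (l (l (p a a) a) (l a a)) (l (p (q (l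
    a a) (l a (b 16))) (q (l a a) (p (b 16) (q (b 16) (b 15))))) (p (l (q a (b 16)) (q (b 16) (b
    15))) (q (b 16) (p (b 15) (b 14)))))) 524288 262144 786432 262144 54975581388800
    68719476736000 = true) := ⟨by decide +kernel⟩
noncomputable def j6o6 : PLift (KT.go (mkCtx w6) utT wtT (p (q (p (b 16) (b 16)) (p (b 14) (b
    14))) (q (p (b 16) (b 15)) (p (b 14) (b 13)))) 786432 131072 524288 262144 54975581388800
    68719476736000 = true) := ⟨by decide +kernel⟩
noncomputable def j6o7 : PLift (KT.go (mkCtx w6) utT wtT (p (q (p (q (b 12) (b 11)) (q (b 12) (b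
    11))) (p (q (b 11) (b 10)) (q (b 10) (p (b 10) (b 10))))) (q (p (q (b 12) (b 11)) (q (b 11) (b
    10))) (p (q (b 10) (p (b 10) (b 9))) (q (p (b 10) (b 9)) (p (b 9) (b 9)))))) 917504 131072
    524288 262144 54975581388800 68719476736000 = true) := ⟨by decide +kernel⟩
noncomputable def j6o8 : PLift (KT.go (mkCtx w6) utT wtT (p (q (p (b 15) (q (b 15) (b 14))) (p (q
    (b 13) (b 12)) (q (b 12) (b 11)))) (q (p (q (b 14) (b 13)) (q (b 13) (p (b 12) (b 11)))) (p (q
    (p (b 12) (b 11)) (p (b 10) (q (b 10) (b 9)))) (q (p (b 11) (q (b 10) (b 9))) (p (q (b 9) (b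
    8)) (q (b 8) (p (b 8) (b 7)))))))) 786432 131072 786432 262144 54975581388800 68719476736000 =
    true) := ⟨by decide +kernel⟩
noncomputable def j6o9 : PLift (KT.go (mkCtx w6) utT wtT (p (q (b 11) (p (b 10) (b 9))) (q (p (b
    10) (b 9)) (p (q (b 9) (b 8)) (q (b 8) (b 8))))) 917504 65536 786432 131072 54975581388800
    68719476736000 = true) := ⟨by decide +kernel⟩
noncomputable def j6o10 : PLift (KT.go (mkCtx w6) utT wtT (p (q (p (b 9) (q (b 8) (b 8))) (p (q (b
    8) (b 8)) (q (b 8) (b 7)))) (q (p (q (b 8) (b 7)) (q (p (b 7) (b 7)) (p (b 7) (b 6)))) (p (q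
    (p (b 7) (b 7)) (p (b 7) (b 6))) (q (p (b 6) (q (b 6) (b 6))) (p (b 6) (q (b 6) (b 5)))))))
    983040 65536 786432 131072 54975581388800 68719476736000 = true) := ⟨by decide +kernel⟩
noncomputable def j6o11 : PLift (KT.go (mkCtx w6) utT wtT (q (p (q (b 9) (b 8)) (q (b 8) (p (b 8)
    (b 7)))) (p (q (b 8) (p (b 7) (b 7))) (q (p (b 7) (b 7)) (p (q (b 6) (b 6)) (q (b 6) (p (b 6)
    s)))))) 917504 65536 917504 65536 54975581388800 68719476736000 = true) := ⟨by decide +kernel⟩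
noncomputable def j6o12 : PLift (KT.go (mkCtx w6) utT wtT (q (p (q (p (b 8) (b 7)) (p (b 7) (q (b
    6) (b 6)))) (q (p (b 7) (q (b 7) (b 6))) (p (q (b 6) (b 6)) (q (b 6) s)))) (p (q (p (q (b 6)
    (b 6)) (q (b 6) (p (b 5) s))) (p (q (p (b 5) s) s) s)) s)) 917504 65536 983040 65536
    54975581388800 68719476736000 = true) := ⟨by decide +kernel⟩
noncomputable def j6o13 : PLift (KT.go (mkCtx w6) utT wtT (p (q (p (q (p (b 6) (q (b 6) (b 6))) (p
    (q (b 6) (b 6)) (q (b 6) s))) (q (p (q (b 6) s) s) s)) (p (q (p (q (b 5) s) s) s) s)) s)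
    983040 65536 917504 131072 54975581388800 68719476736000 = true) := ⟨by decide +kernel⟩
noncomputable def j6o14 : PLift (KT.go (mkCtx w6) utT wtT (q (q (l a (b 15)) (p (l a (b 15)) (l a
    (b 15)))) (p (p (p (l a (b 15)) (l a (b 15))) (l (q a a) (q (b 15) (b 15)))) (q (l a (b 15))
    (p (l a (b 15)) (l a (b 15)))))) 0 524288 0 1048576 68719476736000 82463372083200 = true) :=
    ⟨by decide +kernel⟩
noncomputable def j6o15 : PLift (KT.go (mkCtx w6) utT wtT (p (p (q (b 16) (b 16)) (q (b 16) (b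
    16))) (q (p (b 16) (b 16)) (p (b 16) (b 16)))) 524288 262144 0 524288 68719476736000
    82463372083200 = true) := ⟨by decide +kernel⟩
noncomputable def j6o16 : PLift (KT.go (mkCtx w6) utT wtT (p (p (p (q (b 13) (b 10)) (q (b 13) (b
    10))) (q (b 13) (b 10))) (q (p (b 13) (b 13)) (p (b 10) (q (b 10) (b 9))))) 786432 262144 0
    262144 68719476736000 82463372083200 = true) := ⟨by decide +kernel⟩
noncomputable def j6o17 : PLift (KT.go (mkCtx w6) utT wtT (q (p (p (b 13) (q (b 13) (b 12))) (q (b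
    13) (p (b 12) (b 12)))) (p (p (q (b 10) (b 9)) (q (b 10) (q (b 9) (b 9)))) (q (p (q (b 10) (b
    10)) (q (b 10) (b 10))) (p (q (b 9) (b 9)) (q (b 9) (b 9)))))) 786432 262144 262144 262144
    68719476736000 82463372083200 = true) := ⟨by decide +kernel⟩
noncomputable def j6o18 : PLift (KT.go (mkCtx w6) utT wtT (p (q (b 16) (p (b 15) (b 15))) (q (b
    16) (p (q (b 15) (b 14)) (q (b 15) (p (b 14) (b 13)))))) 524288 262144 524288 524288
    68719476736000 82463372083200 = true) := ⟨by decide +kernel⟩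
noncomputable def j6o19 : PLift (KT.go (mkCtx w6) utT wtT (q (p (q (b 13) (p (b 12) (b 12))) (q (b
    13) (p (b 12) (b 11)))) (p (q (p (q (b 10) (b 10)) (q (b 10) (b 9))) (p (q (b 9) (b 9)) (q (b
    9) (p (b 8) (b 8))))) (q (p (q (b 10) (b 9)) (q (b 10) (b 9))) (p (q (b 9) (p (b 8) (b 8))) (q
    (p (b 8) (b 8)) (p (b 8) (b 7))))))) 786432 262144 524288 262144 68719476736000 82463372083200
    = true) := ⟨by decide +kernel⟩
noncomputable def j6o20 : PLift (KT.go (mkCtx w6) utT wtT (p (q (p (b 13) (b 12)) (p (b 11) (q (b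
    10) (b 9)))) (q (p (q (b 12) (b 11)) (q (b 11) (b 10))) (p (q (b 10) (p (b 9) (b 8))) (q (p (b
    9) (b 8)) (p (q (b 8) (b 7)) (q (b 7) (p (b 6) (b 6)))))))) 786432 131072 786432 262144
    68719476736000 82463372083200 = true) := ⟨by decide +kernel⟩
noncomputable def j6o21 : PLift (KT.go (mkCtx w6) utT wtT (p (q (b 9) (p (b 8) (b 8))) (q (p (b 8)
    (b 8)) (p (b 7) (q (b 7) (b 7))))) 917504 65536 786432 131072 68719476736000 82463372083200 =
    true) := ⟨by decide +kernel⟩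
noncomputable def j6o22 : PLift (KT.go (mkCtx w6) utT wtT (p (q (p (b 8) (q (b 7) (b 7))) (p (q (b
    7) (b 7)) (q (b 7) (b 6)))) (q (p (q (b 7) (b 6)) (q (p (b 6) (b 6)) (p (b 6) (b 5)))) (p (q
    (p (b 6) (b 6)) (p (b 6) (b 5))) (q (p (b 5) (q (b 5) (b 5))) (p (b 5) (q (b 5) (b 5)))))))
    983040 65536 786432 131072 68719476736000 82463372083200 = true) := ⟨by decide +kernel⟩
noncomputable def j6o23 : PLift (KT.go (mkCtx w6) utT wtT (p (q (p (q (b 8) (b 7)) (q (b 7) (b
    6))) (p (q (b 6) (p (b 6) (b 6))) (q (p (b 6) (b 6)) (p (b 5) (q (b 5) (b 5)))))) (q (p (q (p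
    (b 6) (b 6)) (p (b 6) (b 6))) (q (p (b 6) (b 6)) (p (q (b 5) (b 5)) (q (b 5) s)))) (p (q (p (q
    (b 5) (b 5)) (q (b 5) (p (b 5) s))) (p (q (p (b 5) s) s) s)) s))) 917504 65536 917504 131072
    68719476736000 82463372083200 = true) := ⟨by decide +kernel⟩
noncomputable def j6o24 : PLift (KT.go (mkCtx w6) utT wtT (p (q (p (q (p (b 5) (q (b 5) (b 5))) (p
    (q (b 5) (b 5)) (q (b 5) s))) (q (p (q (b 5) s) s) s)) (p (q (p (q (b 5) s) s) s) s)) s)
    983040 65536 917504 131072 68719476736000 82463372083200 = true) := ⟨by decide +kernel⟩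

end Vale.Agent.P154
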