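import Vale.Agent.P154.J.W7

/-! Outer region, job 7. -/

namespace Vale.Agent.P154

open KT

noncomputable def j7o0 : PLift (KT.go (mkCtx w7) utT wtT (q (q (b 14) (b 14)) (p (p (b 14) (b 14))
    (q (b 14) (p (b 14) (b 14))))) 0 524288 0 1048576 82463372083200 109951162777600 = true) :=
    ⟨by decide +kernel⟩
noncomputable def j7o1 : PLift (KT.go (mkCtx w7) utT wtT (p (p (p (q (b 13) (b 13)) (q (b 13) (b
    13))) (q (b 13) (p (b 13) (b 13)))) (p (q (b 13) (b 13)) (q (b 13) (b 13)))) 524288 262144 0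
    524288 82463372083200 109951162777600 = true) := ⟨by decide +kernel⟩
noncomputable def j7o2 : PLift (KT.go (mkCtx w7) utT wtT (p (p (q (p (b 11) (b 11)) (p (p (b 8) (b
    8)) (b 8))) (q (p (b 11) (b 11)) (p (b 8) (q (b 8) (b 7))))) (p (q (q (b 11) (p (b 10) (b
    10))) (q (p (b 8) (b 8)) (p (b 7) (q (b 7) (b 7))))) (q (q (b 11) (b 10)) (q (p (b 8) (b 8))
    (p (q (b 7) (p (b 7) (b 7))) (q (b 7) (p (b 7) (b 7)))))))) 786432 262144 0 524288
    82463372083200 109951162777600 = true) := ⟨by decide +kernel⟩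
noncomputable def j7o3 : PLift (KT.go (mkCtx w7) utT wtT (p (q (b 13) (p (b 13) (b 13))) (q (b 13)
    (p (b 12) (q (b 12) (l (b 11) (b 9)))))) 524288 262144 524288 524288 82463372083200
    109951162777600 = true) := ⟨by decide +kernel⟩
noncomputable def j7o4 : PLift (KT.go (mkCtx w7) utT wtT (q (p (q (b 11) (b 10)) (q (b 11) (p (b
    9) (b 9)))) (p (q (p (b 8) (b 8)) (p (q (b 7) (p (b 7) (b 7))) (q (b 7) (p (b 7) (b 7))))) (q
    (p (q (b 8) (b 7)) (q (b 8) (b 7))) (p (q (b 7) (p (b 7) (b 7))) (q (p (b 7) (b 6)) (p (b 6)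
    (b 6))))))) 786432 262144 524288 262144 82463372083200 109951162777600 = true) :=
    ⟨by decide +kernel⟩
noncomputable def j7o5 : PLift (KT.go (mkCtx w7) utT wtT (p (q (l (b 10) (b 8)) (p (q (b 9) (b 8))
    (q (b 9) (l (b 8) (b 6))))) (q (p (l (b 10) (b 8)) (q (b 9) (l (b 8) (b 6)))) (p (q (l (b 8)
    (b 6)) (p (l (b 7) (b 6)) (l (b 7) (b 5)))) (q (p (l (b 7) (b 6)) (l (q (b 7) (b 6)) (b 5)))
    (p (q (b 6) (l (b 6) (b 5))) (q (l (b 6) (b 5)) (p (b 5) (b 5)))))))) 786432 131072 786432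
    262144 82463372083200 109951162777600 = true) := ⟨by decide +kernel⟩
noncomputable def j7o6 : PLift (KT.go (mkCtx w7) utT wtT (p (q (b 7) (p (b 7) (b 6))) (q (p (b 7)
    (l (b 7) (b 5))) (p (q (b 6) (b 6)) (q (b 6) (b 5))))) 917504 65536 786432 131072
    82463372083200 109951162777600 = true) := ⟨by decide +kernel⟩
noncomputable def j7o7 : PLift (KT.go (mkCtx w7) utT wtT (p (q (p (b 6) (q (b 6) (b 6))) (p (q (b
    6) (b 6)) (q (b 5) (b 5)))) (q (p (q (b 5) (p (b 5) (b 5))) (q (p (b 5) (b 5)) (p (b 5) (b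
    4)))) (p (q (p (b 5) (b 5)) (p (b 5) (b 5))) (q (p (b 4) (q (b 4) (b 4))) (p (b 4) (q (b 4) (b
    4))))))) 983040 65536 786432 131072 82463372083200 109951162777600 = true) :=
    ⟨by decide +kernel⟩
noncomputable def j7o8 : PLift (KT.go (mkCtx w7) utT wtT (q (p (q (b 6) (b 6)) (q (b 6) (p (b 5)
    (b 5)))) (p (q (p (b 5) (b 5)) (p (b 5) (b 5))) (q (p (b 5) (q (b 5) (b 4))) (p (q (b 4) (b
    4)) (q (b 4) (b 4)))))) 917504 65536 917504 65536 82463372083200 109951162777600 = true) :=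
    ⟨by decide +kernel⟩
noncomputable def j7o9 : PLift (KT.go (mkCtx w7) utT wtT (q (p (q (p (b 5) (b 5)) (p (b 5) (q (b
    5) (b 4)))) (q (p (l (b 5) (b 4)) (q (b 5) (b 4))) (p (q (b 4) (b 4)) (q (b 4) s)))) (p (q (p
    (q (b 4) (b 4)) (q (b 4) (p (b 4) s))) (p (q (p (b 4) s) s) s)) s)) 917504 65536 983040 65536
    82463372083200 109951162777600 = true) := ⟨by decide +kernel⟩
noncomputable def j7o10 : PLift (KT.go (mkCtx w7) utT wtT (p (q (p (q (p (b 5) (q (b 4) (b 4))) (p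
    (q (b 4) (b 4)) (q (b 4) s))) (q (p (q (b 4) s) s) s)) (p (q (p (q (b 4) s) s) s) s)) s)
    983040 65536 917504 131072 82463372083200 109951162777600 = true) := ⟨by decide +kernel⟩

end Vale.Agent.P154
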