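import Vale.Agent.P154.J.W8

/-! Outer region, job 8. -/

namespace Vale.Agent.P154

open KT

noncomputable def j8o0 : PLift (KT.go (mkCtx w8) utT wtT (q (b 8) (p (b 7) (q (b 7) (b 7)))) 0
    524288 0 1048576 109951162777600 143486267424768 = true) := ⟨by decide +kernel⟩
noncomputable def j8o1 : PLift (KT.go (mkCtx w8) utT wtT (p (p (b 7) (b 7)) (p (b 7) (b 7)))
    524288 262144 0 524288 109951162777600 143486267424768 = true) := ⟨by decide +kernel⟩
noncomputable def j8o2 : PLift (KT.go (mkCtx w8) utT wtT (p (p (q (p (b 6) (b 6)) (p (p (b 5) (b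
    5)) (b 5))) (q (b 6) (q (b 5) (b 4)))) (q (p (b 6) (b 6)) (p (q (b 5) (b 4)) (q (b 5) (b
    4))))) 786432 262144 0 262144 109951162777600 143486267424768 = true) := ⟨by decide +kernel⟩
noncomputable def j8o3 : PLift (KT.go (mkCtx w8) utT wtT (p (q (b 6) (q (p (b 5) (b 5)) (p (q (b
    4) (p (b 4) (b 4))) (q (b 4) (p (b 4) (b 4)))))) (q (q (b 6) (b 5)) (q (p (b 5) (b 5)) (p (q
    (b 4) (l (b 4) (b 2))) (q (b 4) (l (b 4) (b 2))))))) 786432 262144 262144 262144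
    109951162777600 143486267424768 = true) := ⟨by decide +kernel⟩
noncomputable def j8o4 : PLift (KT.go (mkCtx w8) utT wtT (p (q (b 7) (b 7)) (q (b 7) (p (b 7) (q
    (b 7) (l (b 6) (b 3)))))) 524288 262144 524288 524288 109951162777600 143486267424768 = true)
    := ⟨by decide +kernel⟩
noncomputable def j8o5 : PLift (KT.go (mkCtx w8) utT wtT (q (p (q (b 6) (b 5)) (q (b 6) (b 5))) (p
    (q (p (b 5) (b 5)) (p (q (b 4) (b 4)) (q (b 4) (b 4)))) (q (p (b 5) (q (b 4) (b 4))) (p (q (b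
    4) (b 4)) (q (p (b 4) (b 4)) (p (b 4) (b 3))))))) 786432 262144 524288 262144 109951162777600
    143486267424768 = true) := ⟨by decide +kernel⟩
noncomputable def j8o6 : PLift (KT.go (mkCtx w8) utT wtT (p (q (l (b 6) (b 3)) (p (b 5) (q (b 5)
    (l (b 4) (b 2))))) (q (p (l (b 5) (b 3)) (l (q (b 5) (b 5)) (q (b 3) (b 2)))) (p (q (l (b 4)
    (b 2)) (l (p (b 4) (b 4)) (p (b 2) (b 2)))) (q (l (p (b 4) (b 4)) (p (b 2) (b 2))) (p (l (q (b
    4) (b 3)) (q (b 2) (b 2))) (q (l (b 3) (b 2)) (l (p (b 3) (b 3)) (b 2)))))))) 786432 131072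
    786432 262144 109951162777600 143486267424768 = true) := ⟨by decide +kernel⟩
noncomputable def j8o7 : PLift (KT.go (mkCtx w8) utT wtT (p (q (b 4) (p (b 4) (b 4))) (q (p (b 4)
    (l (b 4) (b 2))) (p (l (b 3) (b 2)) (q (b 3) (b 3))))) 917504 65536 786432 131072
    109951162777600 143486267424768 = true) := ⟨by decide +kernel⟩
noncomputable def j8o8 : PLift (KT.go (mkCtx w8) utT wtT (p (q (p (b 3) (q (b 3) (b 3))) (p (q (b
    3) (b 3)) (q (b 3) (b 3)))) (q (p (q (b 3) (l (b 3) (b 2))) (q (p (b 3) (b 3)) (p (b 3) (b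
    3)))) (p (q (p (b 3) (b 3)) (p (b 3) (b 3))) (q (p (b 3) (l (b 2) (b 1))) (p (l (b 2) (b 1))
    (q (b 2) (b 2))))))) 983040 65536 786432 131072 109951162777600 143486267424768 = true) :=
    ⟨by decide +kernel⟩
noncomputable def j8o9 : PLift (KT.go (mkCtx w8) utT wtT (q (p (l (q (b 4) (b 3)) (b 2)) (q (l (b
    3) (b 2)) (l (b 3) (b 2)))) (p (q (l (b 3) (b 2)) (p (b 3) (b 3))) (q (p (b 3) (l (b 3) (b
    1))) (p (l (b 3) (b 1)) (q (b 2) (l (b 2) (b 1))))))) 917504 65536 917504 65536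
    109951162777600 143486267424768 = true) := ⟨by decide +kernel⟩
noncomputable def j8o10 : PLift (KT.go (mkCtx w8) utT wtT (q (p (q (l (p (b 3) (b 3)) (b 2)) (p (l
    (b 3) (b 2)) (l (b 3) (b 1)))) (q (p (l (b 3) (b 2)) (l (b 3) (b 1))) (p (q (b 3) (l (b 2) (b
    1))) (q (l (b 2) (b 1)) s)))) (p (q (p (l (q (b 3) (b 2)) (q (b 1) (b 1))) (q (l (b 2) (b 1))
    (p (b 2) s))) (p (q (l (b 2) (b 1)) s) s)) s)) 917504 65536 983040 65536 109951162777600
    143486267424768 = true) := ⟨by decide +kernel⟩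
noncomputable def j8o11 : PLift (KT.go (mkCtx w8) utT wtT (p (q (p (q (p (b 3) (q (b 2) (b 2))) (p
    (q (b 2) (b 2)) (q (b 2) s))) (q (p (q (b 2) s) s) s)) (p (q (p (q (b 2) s) s) s) s)) s)
    983040 65536 917504 131072 109951162777600 143486267424768 = true) := ⟨by decide +kernel⟩

end Vale.Agent.P154
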